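import Mathlib
import Vale.Agent.P219.Six.Geo

/-!
# First exit times of geodesics from sublevel sets
-/

open MeasureTheory Filter Topology Set Metric
open scoped ENNReal ContDiff

namespace Vale.Agent.P219.Six

open Vale.Agent.P219 Vale.Agent.P219.Univ

noncomputable section

variable {n : ℕ} {g : MetricField n} {Exp Log : Space n → Space n → Space n}
  {φ : Space n → ℝ} {τ : ℝ}

theorem hasDerivAt_exp_ray (hc : JointCharts g Exp Log) (x v : Space n) (t : ℝ) :
    HasDerivAt (fun s : ℝ => Exp x (s • v)) (vel Exp x v t) t :=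
  (hc.chart x).deriv_ray v t

theorem hasDerivAt_phi_ray (hc : JointCharts g Exp Log) (hφ : ContDiff ℝ 2 φ) (x v : Space n)
    (t : ℝ) : HasDerivAt (fun s : ℝ => φ (Exp x (s • v)))
      (fderiv ℝ φ (Exp x (t • v)) (vel Exp x v t)) t :=
  (hφ.differentiable (by norm_num) _).hasFDerivAt.comp_hasDerivAt t (hasDerivAt_exp_ray hc x v t)

theorem continuous_phi_ray (hc : JointCharts g Exp Log) (hφ : ContDiff ℝ 2 φ) (x v : Space n) :
    Continuous fun s : ℝ => φ (Exp x (s • v)) :=
  continuous_iff_continuousAt.2 fun t => (hasDerivAt_phi_ray hc hφ x v t).continuousAt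

theorem continuous_vel (hc : JointCharts g Exp Log) (x v : Space n) : Continuous (vel Exp x v) :=
  (((hc.smooth_exp_at x).continuous_fderiv (by simp)).comp
    (continuous_id.smul continuous_const)).clm_apply continuous_const

theorem continuous_dphi_ray (hc : JointCharts g Exp Log) (hφ : ContDiff ℝ 2 φ) (x v : Space n) :
    Continuous fun t : ℝ => fderiv ℝ φ (Exp x (t • v)) (vel Exp x v t) :=
  (((hφ.continuous_fderiv (by norm_num)).comp ((hc.smooth_exp_at x).continuous.comp
    (continuous_id.smul continuous_const))).clm_apply (continuous_vel hc x v))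

/-- Geodesics leave every sublevel set below `1`. -/
theorem exists_level_le (hc : JointCharts g Exp Log) (hd : Defining φ) (x : Space n)
    {v : Space n} (hv : v ≠ 0) (hτ : τ ≤ 1) : ∃ t : ℝ, 0 < t ∧ τ ≤ φ (Exp x (t • v)) := by
  obtain ⟨R, hR⟩ := hd.far
  obtain ⟨C, hC⟩ := ((isCompact_closedBall (0 : Space n) R).image
    (hc.smooth_log_at x).continuous).isBounded.subset_closedBall 0
  refine ⟨(max C 0 + 1) / ‖v‖, by positivity, ?_⟩
  by_contra hlt
  have hin : Exp x (((max C 0 + 1) / ‖v‖) • v) ∈ closedBall (0 : Space n) R := by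
    rw [mem_closedBall_zero_iff]
    by_contra h
    linarith [hR _ (not_le.1 h).le, not_le.1 hlt]
  have := hC (mem_image_of_mem (Log x) hin)
  rw [hc.left, mem_closedBall_zero_iff, norm_smul, Real.norm_of_nonneg (by positivity),
    div_mul_cancel₀ _ (norm_ne_zero_iff.2 hv)] at this
  linarith [le_max_left C 0]

theorem bddBelow_exit (Exp : Space n → Space n → Space n) (φ : Space n → ℝ) (τ : ℝ)
    (x v : Space n) : BddBelow {t : ℝ | 0 < t ∧ τ ≤ φ (Exp x (t • v))} :=
  ⟨0, fun _ ht => ht.1.le⟩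

theorem below_before_exit {x v : Space n} {t : ℝ} (ht : 0 < t) (htT : t < exitT Exp φ τ x v) :
    φ (Exp x (t • v)) < τ := by
  by_contra h
  have := csInf_le (bddBelow_exit Exp φ τ x v) ⟨ht, not_lt.1 h⟩
  exact absurd this (not_le.2 htT)

/-- The exit from a point which is below the level just after the start. -/
theorem exit_spec_of (hc : JointCharts g Exp Log) (hd : Defining φ) {x v : Space n} (hv : v ≠ 0)
    (hτ : τ ≤ 1) {δ : ℝ} (hδ : 0 < δ)
    (hlow : ∀ t, 0 < t → t < δ → φ (Exp x (t • v)) < τ) :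
    δ ≤ exitT Exp φ τ x v ∧ φ (Exp x (exitT Exp φ τ x v • v)) = τ := by
  set S := {t : ℝ | 0 < t ∧ τ ≤ φ (Exp x (t • v))} with hS
  obtain ⟨t₁, ht₁, ht₁'⟩ := exists_level_le hc hd x hv hτ
  have hne : S.Nonempty := ⟨t₁, ht₁, ht₁'⟩
  have hδT : δ ≤ exitT Exp φ τ x v := le_csInf hne fun t ht => by
    by_contra h
    exact absurd ht.2 (not_le.2 (hlow t ht.1 (not_le.1 h)))
  have hc' := continuous_phi_ray hc hd.smooth x v
  have hT : 0 < exitT Exp φ τ x v := hδ.trans_le hδT
  refine ⟨hδT, le_antisymm ?_ ?_⟩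
  · refine le_of_tendsto ((hc'.tendsto (exitT Exp φ τ x v)).mono_left
      (nhdsWithin_le_nhds (s := Iio (exitT Exp φ τ x v)))) ?_
    filter_upwards [Ioo_mem_nhdsLT hT] with t ht
    exact (below_before_exit ht.1 ht.2).le
  · have hcl : exitT Exp φ τ x v ∈ closure S := csInf_mem_closure hne (bddBelow_exit Exp φ τ x v)
    exact closure_minimal (fun t ht => ht.2) (isClosed_le continuous_const hc') hcl

theorem exit_spec (hc : JointCharts g Exp Log) (hd : Defining φ) (x v : Space n) (hv : v ≠ 0)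
    (hτ : τ < 1) (hx : φ x < τ) :
    0 < exitT Exp φ τ x v ∧ φ (Exp x (exitT Exp φ τ x v • v)) = τ ∧
      ∀ t, 0 ≤ t → t < exitT Exp φ τ x v → φ (Exp x (t • v)) < τ := by
  have h0 : φ (Exp x ((0 : ℝ) • v)) < τ := by rwa [zero_smul, hc.zero]
  obtain ⟨δ, hδ, hlow⟩ := Metric.eventually_nhds_iff.1
    (((continuous_phi_ray hc hd.smooth x v).tendsto 0).eventually (gt_mem_nhds h0))
  obtain ⟨h1, h2⟩ := exit_spec_of hc hd hv hτ.le hδ fun t ht htδ => hlow (by
    rwa [Real.dist_eq, sub_zero, abs_of_pos ht])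
  refine ⟨hδ.trans_le h1, h2, fun t ht htT => ?_⟩
  rcases ht.eq_or_lt with rfl | ht
  · exact h0
  · exact below_before_exit ht htT

theorem measurable_exitT (hc : JointCharts g Exp Log) (hd : Defining φ) :
    Measurable (fun p : ℝ × Space n × Space n => exitT Exp φ p.1 p.2.1 p.2.2) := by
  have hF : Continuous fun q : (ℝ × Space n × Space n) × ℝ =>
      φ (Exp q.1.2.1 (q.2 • q.1.2.2)) - q.1.1 :=
    (hd.smooth.continuous.comp (hc.continuous_exp.comp
      ((continuous_fst.comp (continuous_snd.comp continuous_fst)).prodMk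
        (continuous_snd.smul (continuous_snd.comp (continuous_snd.comp continuous_fst)))))).sub
      (continuous_fst.comp continuous_fst)
  set C : ℝ → ℝ → Set (ℝ × Space n × Space n) := fun a b =>
    {p | ∃ t ∈ Icc a b, p.1 ≤ φ (Exp p.2.1 (t • p.2.2))} with hC
  have hCm : ∀ a b, MeasurableSet (C a b) := fun a b => by
    refine IsClosed.measurableSet (isOpen_compl_iff.1 (isOpen_iff_mem_nhds.2 fun p hp => ?_))
    have hp' : ∀ t ∈ Icc a b, φ (Exp p.2.1 (t • p.2.2)) - p.1 < 0 := fun t ht => by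
      have : ¬p.1 ≤ φ (Exp p.2.1 (t • p.2.2)) := fun h => hp ⟨t, ht, h⟩
      linarith [not_le.1 this]
    have := (isCompact_Icc (a := a) (b := b)).eventually_forall_of_forall_eventually
      (P := fun q t => φ (Exp q.2.1 (t • q.2.2)) - q.1 < 0) (x₀ := p)
      fun t ht => (hF.tendsto (p, t)).eventually (gt_mem_nhds (hp' t ht))
    filter_upwards [this] with q hq
    rintro ⟨t, ht, h⟩
    linarith [hq t ht]
  set A : ℝ → Set (ℝ × Space n × Space n) := fun a =>
    ⋃ k : ℕ, C (1 / ((k : ℝ) + 1)) (a - 1 / ((k : ℝ) + 1)) with hA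
  have hAi : ∀ a p, p ∈ A a ↔ ∃ t, (0 < t ∧ p.1 ≤ φ (Exp p.2.1 (t • p.2.2))) ∧ t < a := by
    intro a p
    simp only [hA, hC, mem_iUnion, Set.mem_ofPred_eq, mem_Icc]
    constructor
    · rintro ⟨k, t, ⟨h1, h2⟩, h⟩
      have hk : (0 : ℝ) < 1 / ((k : ℝ) + 1) := by positivity
      exact ⟨t, ⟨by linarith, h⟩, by linarith⟩
    · rintro ⟨t, ⟨h1, h⟩, h2⟩
      obtain ⟨k, hk⟩ := exists_nat_one_div_lt (lt_min h1 (sub_pos.2 h2))
      exact ⟨k, t, ⟨le_of_lt (hk.trans_le (min_le_left _ _)),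
        by linarith [hk.trans_le (min_le_right t (a - t))]⟩, h⟩
  refine measurable_of_Iio fun a => ?_
  have hAm : ∀ a, MeasurableSet (A a) := fun a => MeasurableSet.iUnion fun k => hCm _ _
  rcases le_or_gt a 0 with ha | ha
  · convert MeasurableSet.empty
    rw [eq_empty_iff_forall_notMem]
    intro p hp
    have h0 : 0 ≤ exitT Exp φ p.1 p.2.1 p.2.2 := Real.sInf_nonneg fun t ht => ht.1.le
    rw [mem_preimage, mem_Iio] at hp
    linarith
  · have : (fun p : ℝ × Space n × Space n => exitT Exp φ p.1 p.2.1 p.2.2) ⁻¹' Iio a =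
        A a ∪ (⋃ m : ℕ, A m)ᶜ := by
      ext p
      rw [mem_preimage, mem_Iio, mem_union, mem_compl_iff, hAi, mem_iUnion]
      constructor
      · intro h
        rcases eq_empty_or_nonempty {t : ℝ | 0 < t ∧ p.1 ≤ φ (Exp p.2.1 (t • p.2.2))} with he | hne
        · refine Or.inr fun ⟨m, hm⟩ => ?_
          obtain ⟨t, ht, -⟩ := (hAi _ _).1 hm
          exact eq_empty_iff_forall_notMem.1 he t ht
        · exact Or.inl (exists_lt_of_csInf_lt hne h)
      · rintro (⟨t, ht, hta⟩ | h)
        · exact (csInf_le (bddBelow_exit Exp φ _ _ _) ht).trans_lt hta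
        · have : {t : ℝ | 0 < t ∧ p.1 ≤ φ (Exp p.2.1 (t • p.2.2))} = ∅ :=
            eq_empty_iff_forall_notMem.2 fun t ht => by
              obtain ⟨m, hm⟩ := exists_nat_gt t
              exact h ⟨m, (hAi _ _).2 ⟨t, ht, hm⟩⟩
          simpa [exitT, this, Real.sInf_empty] using ha
    rw [this]
    exact (hAm a).union (MeasurableSet.iUnion fun m : ℕ => hAm m).compl

end

end Vale.Agent.P219.Six
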